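import Vale.Agent.P181.TS.Spec

/-!
# P181, TS [SZ]: classes of strictly increasing sizes (helper694)
-/

set_option autoImplicit false

namespace Vale.Agent.P181.TS.H694

open Finset

theorem exists_cl (b R : ℕ) (s : Fin R → ℕ) (hs : ∑ i, s i = b) :
    ∃ cl : Fin b → Fin R, ∀ i, (cls cl i).card = s i := by
  subst hs
  let f : Fin (∑ i, s i) → Fin R := fun u => ((finSigmaFinEquiv (n := s)).symm u).1
  refine ⟨f, fun i => ?_⟩
  have h1 : (univ.filter fun x : (i : Fin R) × Fin (s i) => x.1 = i) =
      univ.map (Function.Embedding.sigmaMk i) := by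
    ext ⟨j, x⟩
    simp only [mem_filter, mem_univ, true_and, mem_map, Function.Embedding.sigmaMk_apply]
    constructor
    · rintro rfl
      exact ⟨x, rfl⟩
    · rintro ⟨y, hy⟩
      exact (Sigma.mk.inj_iff.1 hy).1.symm
  have h2 : (cls f i).card =
      (univ.filter fun x : (i : Fin R) × Fin (s i) => x.1 = i).card := by
    refine Finset.card_equiv (finSigmaFinEquiv (n := s)).symm fun u => ?_
    simp [cls, f]
  rw [h2, h1, card_map, card_univ, Fintype.card_fin]

theorem sz : SzStmt := by
  intro b R hR hb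
  set m := b - R * (R - 1) / 2 with hm
  set e := m / R with he
  set q := m % R with hq
  have hRR : R * (R - 1) / 2 ≤ R ^ 2 := by
    refine (Nat.div_le_self _ _).trans ?_
    rw [pow_two]
    exact Nat.mul_le_mul_left _ (Nat.sub_le _ _)
  have hmb : m + R * (R - 1) / 2 = b := by omega
  have hmq : R * e + q = m := Nat.div_add_mod m R
  have hqR : q < R := Nat.mod_lt _ hR
  let s : Fin R → ℕ := fun i => e + i + if R - q ≤ (i : ℕ) then 1 else 0
  have hsum : ∑ i, s i = b := by
    have h1 : ∑ i : Fin R, s i = ∑ i ∈ range R, (e + i + if R - q ≤ i then 1 else 0) :=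
      Fin.sum_univ_eq_sum_range (fun i => e + i + if R - q ≤ i then 1 else 0) R
    rw [h1, sum_add_distrib, sum_add_distrib, sum_const, card_range, smul_eq_mul,
      sum_range_id, ← card_filter]
    have h2 : (filter (fun i => R - q ≤ i) (range R)) = Ico (R - q) R := by
      ext i
      simp only [mem_filter, mem_range, mem_Ico]
      tauto
    rw [h2, Nat.card_Ico]
    omega
  obtain ⟨cl, hcl⟩ := exists_cl b R s hsum
  have hlo : ∀ i, e ≤ s i := fun i => by simp only [s]; omega
  have hhi : ∀ i, s i ≤ e + R := fun i => by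
    have := i.2
    simp only [s]
    split_ifs <;> omega
  have hinc : ∀ i j : Fin R, i < j → s i < s j := fun i j hij => by
    have h1 : (i : ℕ) < j := hij
    simp only [s]
    split_ifs <;> omega
  refine ⟨cl, e, ?_, ?_, ?_, fun i => ?_, fun i j hij => ?_⟩
  · rw [he, Nat.le_div_iff_mul_le hR]
    nlinarith
  · calc R * e ≤ R * e + q := Nat.le_add_right _ _
      _ = m := hmq
      _ ≤ b := by omega
  · calc b = ∑ i, s i := hsum.symm
      _ ≤ ∑ _i : Fin R, (e + R) := sum_le_sum fun i _ => hhi i
      _ = R * (e + R) := by simp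
  · rw [hcl]
    exact ⟨hlo i, hhi i⟩
  · rw [hcl, hcl]
    exact hinc i j hij

end Vale.Agent.P181.TS.H694
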